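import Vale.Agent.P237.Bd3.B30
import Vale.Agent.P237.H888.C1
import Vale.Agent.P237.H888.Full

/-!
# Petty's projection inequality with its equality cases for convex bodies, for sets of finite
perimeter and for functions of bounded variation
-/

open MeasureTheory Metric Set Module

namespace Vale.Agent.Results.P237.EqualityCases

open Vale.Agent.P237.Statement Vale.Agent.P237.H888

/-- **Petty's projection-volume conjecture in every dimension, with the equality cases for convex
bodies, sets of finite perimeter and functions of bounded variation.** Let `V` be an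
`n`-dimensional real inner product space, `n ≥ 3`, and `c = κ_{n-1}^n κ_n^{2-n}`.

1. Petty's conjecture: every convex body has exactly one projection body, and
   `|ΠK| ≥ c |K|^{n-1}` with equality exactly for the ellipsoids.
2. For every function `f` of bounded variation, `Πf = fnProjBody f` is the compact convex set with
   support function `v ↦ dirVar f v / 2`, and `|Πf| ≥ c (∫ |f|^{n/(n-1)})^{n-1}`, with equality
   if and only if `f` is almost everywhere equal to a constant multiple of the indicator function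
   of an ellipsoid.
3. For every measurable set `E` of finite perimeter and volume, `|ΠE| ≥ c |E|^{n-1}`, where
   `ΠE = Π(1_E)`; if `|E| > 0`, then equality holds if and only if `E` is an ellipsoid up to a
   null set.
4. If `K` is a convex body then `1_K` is of bounded variation and `Π(1_K)` is the projection body
   of `K`.
5. If `g` is `C¹` with compact support, then `g` is of bounded variation and its variation in the
   direction `v` is `∫ |∂_v g|`. -/
theorem result {V : Type} [NormedAddCommGroup V] [InnerProductSpace ℝ V] [FiniteDimensional ℝ V]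
    [MeasurableSpace V] [BorelSpace V] :
    (∀ K : Set V, IsConvexBody K → ∃! L, IsProjectionBody K L) ∧
    ∀ n : ℕ, 3 ≤ n → finrank ℝ V = n →
      PettyIn V n ∧
      (∀ f : V → ℝ, IsBV f →
        (IsCompact (fnProjBody f) ∧ Convex ℝ (fnProjBody f) ∧
          ∀ v : V, supportFun (fnProjBody f) v = dirVar f v / 2) ∧
        Integrable (fun x => |f x| ^ ((n : ℝ) / (n - 1))) ∧
        kappa (n - 1) ^ n * kappa n ^ (2 - (n : ℤ)) *
          (∫ x, |f x| ^ ((n : ℝ) / (n - 1))) ^ (n - 1) ≤ vol (fnProjBody f) ∧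
        (vol (fnProjBody f) = kappa (n - 1) ^ n * kappa n ^ (2 - (n : ℤ)) *
            (∫ x, |f x| ^ ((n : ℝ) / (n - 1))) ^ (n - 1) ↔
          ∃ (a : ℝ) (Q : Set V), IsEllipsoid Q ∧ f =ᵐ[volume] Q.indicator fun _ => a)) ∧
      (∀ E : Set V, MeasurableSet E → volume E ≠ ⊤ → IsBV (E.indicator fun _ => (1 : ℝ)) →
        kappa (n - 1) ^ n * kappa n ^ (2 - (n : ℤ)) * vol E ^ (n - 1) ≤
          vol (fnProjBody (E.indicator fun _ => (1 : ℝ))) ∧
        (volume E ≠ 0 → (vol (fnProjBody (E.indicator fun _ => (1 : ℝ))) =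
            kappa (n - 1) ^ n * kappa n ^ (2 - (n : ℤ)) * vol E ^ (n - 1) ↔
          ∃ Q : Set V, IsEllipsoid Q ∧ E =ᵐ[volume] Q))) ∧
      (∀ K : Set V, IsConvexBody K → IsBV (K.indicator fun _ => (1 : ℝ)) ∧
        IsProjectionBody K (fnProjBody (K.indicator fun _ => (1 : ℝ)))) ∧
      (∀ g : V → ℝ, ContDiff ℝ 1 g → HasCompactSupport g →
        IsBV g ∧ ∀ v : V, dirVar g v = ∫ x, |fderiv ℝ g x v|) := by
  refine ⟨fun _ hK => existsUnique_projectionBody hK, fun n hn hd => ?_⟩
  have hP : PettyIn V n := Vale.Agent.P237.AllN.petty_all hn hd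
  obtain ⟨m, rfl⟩ : ∃ m, n = m + 1 := ⟨n - 1, by omega⟩
  have hm : 1 ≤ m := by omega
  have hmR : (0 : ℝ) < m := by exact_mod_cast hm
  have hk : ∀ j : ℕ, 0 < kappa j := fun j => Vale.Agent.P237.AllN.kappa_pos j
  have hc : 0 < kappa (m + 1 - 1) ^ (m + 1) * kappa (m + 1) ^ (2 - ((m + 1 : ℕ) : ℤ)) := by
    have := hk (m + 1 - 1)
    have := hk (m + 1)
    positivity
  set c := kappa (m + 1 - 1) ^ (m + 1) * kappa (m + 1) ^ (2 - ((m + 1 : ℕ) : ℤ)) with hcd
  have hin : ∀ K : Set V, Vale.Agent.P237.IsBody K →
      c * Vale.Agent.P237.vol K ^ m ≤ Vale.Agent.P237.vol (Vale.Agent.P237.projBody K) := by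
    intro K hK
    have hK' : IsConvexBody K := ⟨hK.convex, hK.compact, hK.int⟩
    exact (hP K _ hK' ((isProjectionBody_iff hK').2 rfl)).1
  have hine : ∀ K : Set V, Vale.Agent.P237.IsBody K →
      (Vale.Agent.P237.vol (Vale.Agent.P237.projBody K) = c * Vale.Agent.P237.vol K ^ m ↔
        IsEllipsoid K) := by
    intro K hK
    have hK' : IsConvexBody K := ⟨hK.convex, hK.compact, hK.int⟩
    exact (hP K _ hK' ((isProjectionBody_iff hK').2 rfl)).2
  have hexp : ((m + 1 : ℕ) : ℝ) / (((m + 1 : ℕ) : ℝ) - 1) = ((m : ℝ) + 1) / m := by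
    push_cast
    rw [add_sub_cancel_right]
  have hp0 : (0 : ℝ) < ((m : ℝ) + 1) / m := by positivity
  have hball : IsEllipsoid (closedBall (0 : V) 1) :=
    ⟨0, id, ⟨fun _ _ => rfl, fun _ _ => rfl⟩, Function.bijective_id, by simp⟩
  have hBV : ∀ f : V → ℝ, IsBV f →
      Integrable (fun x => |f x| ^ (((m + 1 : ℕ) : ℝ) / (((m + 1 : ℕ) : ℝ) - 1))) ∧
      c * (∫ x, |f x| ^ (((m + 1 : ℕ) : ℝ) / (((m + 1 : ℕ) : ℝ) - 1))) ^ (m + 1 - 1) ≤
          vol (fnProjBody f) ∧
      (vol (fnProjBody f) =
        c * (∫ x, |f x| ^ (((m + 1 : ℕ) : ℝ) / (((m + 1 : ℕ) : ℝ) - 1))) ^ (m + 1 - 1) ↔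
          ∃ (a : ℝ) (Q : Set V), IsEllipsoid Q ∧ f =ᵐ[volume] Q.indicator fun _ => a) := by
    intro f hf
    rw [hexp]
    obtain ⟨h1, h2⟩ := bv_petty hm hd hc hin hf
    refine ⟨h1, h2, ?_⟩
    by_cases hne : ∀ᵐ x, f x = 0
    · refine iff_of_true ?_ ⟨0, closedBall 0 1, hball, ?_⟩
      · have e1 : fnProjBody f = {0} := by
          rw [fnProjBody_congr (g := fun _ => (0 : ℝ)) hne]
          ext y
          rw [mem_singleton_iff]
          have h0 : ∀ v : V, dirVar (fun _ : V => (0 : ℝ)) v = 0 := by
            intro v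
            refine le_antisymm (dirVar_le_of fun t ht => ?_) (dirVar_nonneg _ _)
            simp
          constructor
          · intro hy
            have := hy y
            rw [h0, zero_div, real_inner_self_eq_norm_sq] at this
            have h3 : ‖y‖ ^ 2 = 0 := le_antisymm this (sq_nonneg _)
            exact norm_eq_zero.1 (pow_eq_zero_iff (two_ne_zero)|>.1 h3)
          · rintro rfl
            exact zero_mem_fnProjBody _
        have hnt : Nontrivial V := Module.nontrivial_of_finrank_pos (R := ℝ) (by omega)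
        have e2 : ∫ x, |f x| ^ (((m : ℝ) + 1) / m) = 0 := by
          rw [← integral_zero V ℝ]
          refine integral_congr_ae ?_
          filter_upwards [hne] with x hx
          rw [hx, abs_zero, Real.zero_rpow hp0.ne']
        rw [e1, e2, zero_pow (by omega), mul_zero]
        show (volume ({0} : Set V)).toReal = 0
        simp
      · filter_upwards [hne] with x hx
        rw [hx]
        simp
    · rw [show m + 1 - 1 = m by omega]
      refine (bv_equality hm hd hc hin hine hf hne).trans ?_
      constructor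
      · rintro ⟨a, Q, -, hQ, h⟩
        exact ⟨a, Q, hQ, h⟩
      · rintro ⟨a, Q, hQ, h⟩
        refine ⟨a, Q, ?_, hQ, h⟩
        rintro rfl
        apply hne
        filter_upwards [h] with x hx
        rw [hx]
        simp
  refine ⟨hP, fun f hf => ⟨⟨hf.fnProjBody_compact, fnProjBody_convex f, fun v => ?_⟩, hBV f hf⟩,
    fun E hE hfin hEBV => ?_, fun K hK => ?_, fun g hg hgs => ⟨c1_isBV hg hgs,
      fun v => c1_dirVar hg hgs v⟩⟩
  · rw [← hf.supp_fnProjBody v]
    unfold supportFun Vale.Agent.P237.supp
    simp_rw [real_inner_comm]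
  · obtain ⟨-, h2, h3⟩ := hBV _ hEBV
    have e : ∀ x, |E.indicator (fun _ => (1 : ℝ)) x| ^
        (((m + 1 : ℕ) : ℝ) / (((m + 1 : ℕ) : ℝ) - 1)) = E.indicator (fun _ => (1 : ℝ)) x := by
      intro x
      by_cases hx : x ∈ E
      · rw [indicator_of_mem hx, abs_one, Real.one_rpow]
      · rw [indicator_of_notMem hx, abs_zero, Real.zero_rpow]
        rw [hexp]
        exact hp0.ne'
    simp_rw [e] at h2 h3
    rw [integral_indicator hE, setIntegral_const, smul_eq_mul, mul_one] at h2 h3
    refine ⟨h2, fun h0 => h3.trans ⟨?_, ?_⟩⟩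
    · rintro ⟨a, Q, hQ, h⟩
      refine ⟨Q, hQ, ?_⟩
      have ha1 : a = 1 := by
        by_contra hcon
        apply h0
        have h4 : ∀ᵐ x, x ∉ E := by
          filter_upwards [h] with x hx hxE
          rw [indicator_of_mem hxE] at hx
          by_cases hxQ : x ∈ Q
          · rw [indicator_of_mem hxQ] at hx
            exact hcon hx.symm
          · rw [indicator_of_notMem hxQ] at hx
            exact one_ne_zero hx
        exact measure_eq_zero_iff_ae_notMem.2 h4
      subst ha1
      filter_upwards [h] with x hx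
      by_cases hxE : x ∈ E
      · by_cases hxQ : x ∈ Q
        · exact propext (iff_of_true hxE hxQ)
        · rw [indicator_of_mem hxE, indicator_of_notMem hxQ] at hx
          exact absurd hx one_ne_zero
      · by_cases hxQ : x ∈ Q
        · rw [indicator_of_notMem hxE, indicator_of_mem hxQ] at hx
          exact absurd hx.symm one_ne_zero
        · exact propext (iff_of_false hxE hxQ)
    · rintro ⟨Q, hQ, h⟩
      exact ⟨1, Q, hQ, indicator_ae_eq_of_ae_eq_set h⟩
  · have hK' : Vale.Agent.P237.IsBody K := ⟨hK.1, hK.2.1, hK.2.2⟩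
    refine ⟨indicator_isBV hK', (isProjectionBody_iff hK).2 ?_⟩
    exact fnProjBody_indicator hK'

end Vale.Agent.Results.P237.EqualityCases
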