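import Vale.Agent.P237.Bd3.B30
import Vale.Agent.P237.H344.HT

/-!
# Petty's projection inequality and the isoperimetric inequality in normed spaces
-/

namespace Vale.Agent.Results.P237.HolmesThompson

open Vale.Agent.P237.Statement Vale.Agent.P237.H344 Module

/-- **Petty's projection-volume conjecture in every dimension, for two bodies, and the
isoperimetric inequality for the Holmes-Thompson area in every normed space.**
Every convex body has exactly one projection body. Let `n ≥ 3` and let `V` be an `n`-dimensional
real inner product space. (1) Petty's inequality holds, with equality exactly for the ellipsoids.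
(2) For convex bodies `K`, `L` the mixed volume `A = V(K, ..., K, ΠL)` satisfies
`A ^ n ≥ κ_{n-1}^n κ_n^{2-n} (|K| |L|)^{n-1}`, with equality iff `L` is an ellipsoid and `K` is
homothetic to `ΠL`. (3) For every norm on `V`, with unit ball `B`, and every convex body `K`, the
Holmes-Thompson area and volume satisfy the Euclidean isoperimetric inequality, with equality iff
`B` is an ellipsoid and `K` is homothetic to `B`. -/
theorem result {V : Type} [NormedAddCommGroup V] [InnerProductSpace ℝ V] [FiniteDimensional ℝ V]
    [MeasurableSpace V] [BorelSpace V] :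
    (∀ K : Set V, IsConvexBody K → ∃! L, IsProjectionBody K L) ∧
    ∀ n : ℕ, 3 ≤ n → finrank ℝ V = n →
      -- (1)
      PettyIn V n ∧
      -- (2)
      (∀ K L M : Set V, IsConvexBody K → IsConvexBody L → IsProjectionBody L M →
        (∃! A, IsMixedVolume K M A) ∧ ∀ A, IsMixedVolume K M A →
          kappa (n - 1) ^ n * kappa n ^ (2 - (n : ℤ)) * (vol K * vol L) ^ (n - 1) ≤ A ^ n ∧
          (A ^ n = kappa (n - 1) ^ n * kappa n ^ (2 - (n : ℤ)) * (vol K * vol L) ^ (n - 1) ↔
            IsEllipsoid L ∧ IsHomothetic K M)) ∧
      -- (3)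
      (∀ B K : Set V, IsUnitBall B → IsConvexBody K →
        (∃! A, IsHTArea B K A) ∧ ∀ A, IsHTArea B K A →
          (n : ℝ) ^ n * kappa n * htVolume B K ^ (n - 1) ≤ A ^ n ∧
          (A ^ n = (n : ℝ) ^ n * kappa n * htVolume B K ^ (n - 1) ↔
            IsEllipsoid B ∧ IsHomothetic K B)) := by
  refine ⟨fun _ hK => existsUnique_projectionBody hK, fun n hn hd => ?_⟩
  have hP : PettyIn V n := Vale.Agent.P237.AllN.petty_all hn hd
  exact ⟨hP, fun K L M hK hL hM => ⟨existsUnique_mixed hK hM.1 (by omega), fun A hA =>
    two_body (by omega) hd hP hK hL hM hA⟩, fun B K hB hK =>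
    holmes_thompson (by omega) hd hP hB hK⟩

end Vale.Agent.Results.P237.HolmesThompson
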