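import Vale.Agent.P237.Bd3.B30
import Vale.Agent.P237.H406.Stab

/-!
# Petty's projection inequality with stability
-/

open MeasureTheory Metric Set Module

namespace Vale.Agent.Results.P237.PettyStability

open Vale.Agent.P237.Statement

/-- `K` is `ε`-close to an ellipsoid: `a + T B ⊆ K ⊆ a + (1 + ε) T B` for a point `a` and an
invertible linear map `T`, where `B` is the unit ball. -/
def IsNearEllipsoid {V : Type} [NormedAddCommGroup V] [InnerProductSpace ℝ V] (ε : ℝ)
    (K : Set V) : Prop :=
  ∃ (a : V) (T : V → V), IsLinearMap ℝ T ∧ Function.Bijective T ∧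
    (fun x => a + T x) '' closedBall 0 1 ⊆ K ∧
    K ⊆ (fun x => a + (1 + ε) • T x) '' closedBall 0 1

/-- Stability of Petty's inequality for the convex bodies of the space `V`, of dimension `n`: a
body whose projection body has almost minimal volume is close to an ellipsoid. -/
def PettyStableIn (V : Type) [NormedAddCommGroup V] [InnerProductSpace ℝ V]
    [FiniteDimensional ℝ V] [MeasurableSpace V] [BorelSpace V] (n : ℕ) : Prop :=
  ∀ ε : ℝ, 0 < ε → ∃ δ : ℝ, 0 < δ ∧ ∀ K L : Set V, IsConvexBody K → IsProjectionBody K L →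
    vol L ≤ (1 + δ) * (kappa (n - 1) ^ n * kappa n ^ (2 - (n : ℤ)) * vol K ^ (n - 1)) →
    IsNearEllipsoid ε K

/-- **Petty's projection-volume conjecture in every dimension, with stability.** Every convex body
has exactly one projection body; for every `n ≥ 3` and every convex body `K` of an `n`-dimensional
real inner product space Petty's inequality holds, with equality exactly for the ellipsoids, and
almost equality forces `K` to be close to an ellipsoid. -/
theorem result {V : Type} [NormedAddCommGroup V] [InnerProductSpace ℝ V] [FiniteDimensional ℝ V]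
    [MeasurableSpace V] [BorelSpace V] :
    (∀ K : Set V, IsConvexBody K → ∃! L, IsProjectionBody K L) ∧
      (∀ n : ℕ, 3 ≤ n → finrank ℝ V = n → PettyIn V n ∧ PettyStableIn V n) := by
  refine ⟨fun _ hK => existsUnique_projectionBody hK, fun n hn hd => ?_⟩
  have hP : PettyIn V n := Vale.Agent.P237.AllN.petty_all hn hd
  refine ⟨hP, fun ε hε => ?_⟩
  have hd0 : 0 < finrank ℝ V := by omega
  set m : ℝ := kappa (n - 1) ^ n * kappa n ^ (2 - (n : ℤ)) with hm
  have hk : ∀ j : ℕ, 0 < kappa j := fun j => Vale.Agent.P237.AllN.kappa_pos j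
  have hm0 : 0 < m := by
    have := hk (n - 1)
    have := hk n
    positivity
  -- Petty's inequality for the functional `ratio`
  have hin : ∀ K : Set V, Vale.Agent.P237.IsBody K →
      m * Vale.Agent.P237.vol K ^ (n - 1) ≤ Vale.Agent.P237.vol (Vale.Agent.P237.projBody K) ∧
      (Vale.Agent.P237.vol (Vale.Agent.P237.projBody K) = m * Vale.Agent.P237.vol K ^ (n - 1) ↔
        IsEllipsoid K) := by
    intro K hK
    have hK' : IsConvexBody K := ⟨hK.convex, hK.compact, hK.int⟩
    exact hP K _ hK' ((isProjectionBody_iff hK').2 rfl)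
  obtain ⟨δ, hδ, h⟩ := Vale.Agent.P237.H406.stability (V := V) hd0 hm0
    (fun K hK => by
      have hv := Vale.Agent.P237.Main.vol_pos hK
      unfold Vale.Agent.P237.ratio
      rw [hd, le_div_iff₀ (by positivity)]
      exact (hin K hK).1)
    (fun K hK hr => by
      have hv := Vale.Agent.P237.Main.vol_pos hK
      unfold Vale.Agent.P237.ratio at hr
      rw [hd, div_eq_iff (by positivity)] at hr
      exact (isEllipsoid_iff K).1 ((hin K hK).2.1 hr))
    hε
  refine ⟨δ, hδ, fun K L hK hL hle => ?_⟩
  obtain rfl := (isProjectionBody_iff hK).1 hL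
  have hK' : Vale.Agent.P237.IsBody K := ⟨hK.1, hK.2.1, hK.2.2⟩
  have hv := Vale.Agent.P237.Main.vol_pos hK'
  obtain ⟨a, T, h1, h2⟩ := h K hK' (by
    unfold Vale.Agent.P237.ratio
    rw [hd, div_le_iff₀ (by positivity), mul_assoc]
    exact hle)
  refine ⟨a, T, ⟨T.map_add, T.map_smul⟩, T.bijective, ?_, ?_⟩
  · rintro _ ⟨x, hx, rfl⟩
    exact h1 x hx
  · intro y hy
    obtain ⟨x, hx, hxy⟩ := h2 y hy
    exact ⟨x, hx, hxy.symm⟩

end Vale.Agent.Results.P237.PettyStability
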